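import Vale.Agent.P354H.Calc

/-!
Solutions which are smooth in space are smooth in space-time.
-/

open scoped ContDiff
open MeasureTheory Set Filter Topology

namespace Vale.Agent.P354HL

open Vale.Agent.P354H

variable {V V' : Type} [NormedAddCommGroup V] [NormedSpace ℝ V] [NormedAddCommGroup V']
  [NormedSpace ℝ V'] {I : Set ℝ} {n : ℕ}

/-- All space derivatives are of class C^n in space-time. -/
structure Cl (I : Set ℝ) (n : ℕ) (F : ℝ → X3 → V) : Prop where
  sm : ∀ t ∈ I, ContDiff ℝ ∞ (F t)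
  cd : ∀ α, ContDiffOn ℝ n (fun p : ℝ × X3 => pdl α (F p.1) p.2) (I ×ˢ univ)

theorem Cl.pd {F : ℝ → X3 → V} (h : Cl I n F) (j : Fin 3) : Cl I n fun t => pd j (F t) :=
  ⟨fun t ht => pd_sm j (h.sm t ht), fun α => h.cd (j :: α)⟩

theorem Cl.add {F G : ℝ → X3 → V} (h : Cl I n F) (h' : Cl I n G) : Cl I n fun t => F t + G t :=
  ⟨fun t ht => (h.sm t ht).add (h'.sm t ht), fun α => ((h.cd α).add (h'.cd α)).congr fun p hp => by
    rw [pdl_add α (h.sm _ hp.1) (h'.sm _ hp.1)]; rfl⟩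

theorem Cl.ap {A : ℝ → X3 → V →L[ℝ] V'} {F : ℝ → X3 → V} (h : Cl I n A) (h' : Cl I n F) :
    Cl I n fun t => ap (A t) (F t) := by
  refine ⟨fun t ht => ap_sm (h.sm t ht) (h'.sm t ht), fun α => ?_⟩
  induction α generalizing A F with
  | nil => exact (h.cd []).clm_apply (h'.cd [])
  | cons j α ih =>
    refine ((ih (h.pd j) h').add (ih h (h'.pd j))).congr fun p hp => ?_
    have a := h.sm _ hp.1
    have b := h'.sm _ hp.1
    simp only [pdl]
    rw [pd_ap j a b, pdl_add α (ap_sm (pd_sm j a) b) (ap_sm a (pd_sm j b))]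
    rfl

theorem sl_sm {a : ℝ × X3 → V} (h : ContDiff ℝ ∞ a) (t : ℝ) : ContDiff ℝ ∞ (sl a t) :=
  h.comp (contDiff_prodMk_right t)

theorem pd_sl_at {a : ℝ × X3 → V} {t : ℝ} {x : X3} (h : DifferentiableAt ℝ a (t, x)) (j : Fin 3) :
    pd j (sl a t) x = dx j a (t, x) := by
  unfold pd
  rw [show fderiv ℝ (sl a t) x = _ from (h.hasFDerivAt.comp x (hasFDerivAt_prodMk_right t x)).fderiv]
  rfl

theorem pd_sl {a : ℝ × X3 → V} (h : ContDiff ℝ ∞ a) (j : Fin 3) (t : ℝ) :
    pd j (sl a t) = sl (dx j a) t := funext fun _ => pd_sl_at (h.differentiable (by simp) _) j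

theorem dx_sm {a : ℝ × X3 → V} (h : ContDiff ℝ ∞ a) (j : Fin 3) : ContDiff ℝ ∞ (dx j a) :=
  (h.fderiv_right (m := ∞) (by simp)).clm_apply contDiff_const

theorem Cl.coef {a : ℝ × X3 → V} (h : ContDiff ℝ ∞ a) : Cl I n (sl a) := by
  refine ⟨fun t _ => sl_sm h t, fun α => ?_⟩
  induction α generalizing a with
  | nil => exact (h.of_le (by exact_mod_cast le_top)).contDiffOn
  | cons j α ih => simpa only [pdl, pd_sl h] using ih (dx_sm h j)

theorem Cl.G {S : Sys V} (hS : S.Sm) {U : ℝ → X3 → V} (h : Cl I n U) :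
    Cl I n fun t => S.G t (U t) := by
  have a := fun j => ((Cl.coef (hS.a j)).add ((Cl.coef (hS.l j)).ap h)).ap (h.pd j)
  have b := (((a 0).add (a 1)).add (a 2)).add
    (((Cl.coef hS.b).ap h).add (((Cl.coef hS.q).ap h).ap h))
  have e : (fun t => S.G t (U t)) = _ := funext fun t => funext fun x => by
    unfold Sys.G
    rw [Fin.sum_univ_three]
  rw [e]
  exact b

/-- The time derivative commutes with the space derivatives. -/
theorem exch [CompleteSpace V] {s t : ℝ} {F G : ℝ → X3 → V} (hF : Cl (Ioo s t) 0 F)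
    (hG : Cl (Ioo s t) 0 G) (h : ∀ r ∈ Ioo s t, ∀ x, HasDerivAt (fun r => F r x) (G r x) r)
    (j : Fin 3) : ∀ r ∈ Ioo s t, ∀ x, HasDerivAt (fun r => pd j (F r) x) (pd j (G r) x) r := by
  intro r0 h0 x
  have c0 : ContinuousOn (fun p : ℝ × X3 => G p.1 p.2) (Ioo s t ×ˢ univ) := (hG.cd []).continuousOn
  have c1 : ContinuousOn (fun p : ℝ × X3 => pd j (G p.1) p.2) (Ioo s t ×ˢ univ) :=
    (hG.cd [j]).continuousOn
  have k0 : ∀ y, ContinuousOn (fun r => G r y) (Ioo s t) := fun y =>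
    c0.comp (Continuous.prodMk_left y).continuousOn fun _ hr => ⟨hr, mem_univ _⟩
  have k1 : ∀ y, ContinuousOn (fun r => pd j (G r) y) (Ioo s t) := fun y =>
    c1.comp (Continuous.prodMk_left y).continuousOn fun _ hr => ⟨hr, mem_univ _⟩
  have e : ∀ r ∈ Ioo s t, pd j (F r) x = pd j (F r0) x + ∫ σ in r0..r, pd j (G σ) x := fun r hr => by
    have sub : uIcc r0 r ⊆ Ioo s t := ordConnected_Ioo.uIcc_subset h0 hr
    have sub' : uIoc r0 r ⊆ Ioo s t := uIoc_subset_uIcc.trans sub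
    obtain ⟨M, hM⟩ := (isCompact_uIcc.prod (isCompact_closedBall x 1)).exists_bound_of_continuousOn
      (c1.mono (prod_mono sub (subset_univ _)))
    have d := (intervalIntegral.hasDerivAt_integral_of_dominated_loc_of_deriv_le (μ := volume)
      (a := r0) (b := r) (F := fun ε σ => G σ (x + ε • e j))
      (F' := fun ε σ => pd j (G σ) (x + ε • e j)) (x₀ := (0 : ℝ)) (bound := fun _ => M)
      (Metric.closedBall_mem_nhds 0 one_pos)
      (Eventually.of_forall fun ε => ((k0 _).mono sub').aestronglyMeasurable measurableSet_uIoc)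
      ((k0 _).mono sub).intervalIntegrable
      (((k1 _).mono sub').aestronglyMeasurable measurableSet_uIoc)
      (ae_of_all _ fun σ hσ ε hε => hM (σ, x + ε • e j) ⟨uIoc_subset_uIcc hσ, by
        simpa [norm_smul, norm_e] using hε⟩) intervalIntegrable_const
      (ae_of_all _ fun σ hσ ε _ => hasDerivAt_line j (dif (hG.sm σ (sub' hσ))) x ε)).2
    have d1 := hasDerivAt_line j (dif (hF.sm r hr)) x 0
    have d2 := (hasDerivAt_line j (dif (hF.sm r0 h0)) x 0).add d
    have e1 : (fun ε : ℝ => F r (x + ε • e j)) = fun ε : ℝ => F r0 (x + ε • e j) +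
        ∫ σ in r0..r, G σ (x + ε • e j) := funext fun ε => by
      rw [intervalIntegral.integral_eq_sub_of_hasDerivAt (fun σ hσ => h σ (sub hσ) _)
        ((k0 _).mono sub).intervalIntegrable, add_sub_cancel]
    rw [e1] at d1
    simpa using d1.unique d2
  have n0 := isOpen_Ioo.mem_nhds h0
  refine ((intervalIntegral.integral_hasDerivAt_right (a := r0) (by simp)
    ((k1 x).stronglyMeasurableAtFilter isOpen_Ioo r0 h0) ((k1 x).continuousAt n0)).const_add
      (pd j (F r0) x)).congr_of_eventuallyEq ?_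
  filter_upwards [n0] with r hr using e r hr

theorem exchl [CompleteSpace V] {s t : ℝ} (α : List (Fin 3)) {F G : ℝ → X3 → V}
    (hF : Cl (Ioo s t) 0 F) (hG : Cl (Ioo s t) 0 G)
    (h : ∀ r ∈ Ioo s t, ∀ x, HasDerivAt (fun r => F r x) (G r x) r) :
    ∀ r ∈ Ioo s t, ∀ x, HasDerivAt (fun r => pdl α (F r) x) (pdl α (G r) x) r := by
  induction α generalizing F G with
  | nil => exact h
  | cons j α ih => exact ih (hF.pd j) (hG.pd j) (exch hF hG h j)

/-- The coordinate functions. -/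
noncomputable def co : Fin 3 → X3 →L[ℝ] ℝ :=
  ![.fst ℝ ℝ _, (.fst ℝ ℝ ℝ : ℝ × ℝ →L[ℝ] ℝ).comp (.snd ℝ ℝ _),
    (.snd ℝ ℝ ℝ : ℝ × ℝ →L[ℝ] ℝ).comp (.snd ℝ ℝ _)]

theorem clm_eq (T : X3 →L[ℝ] V) : T = ∑ j, (co j).smulRight (T (e j)) := by
  refine ContinuousLinearMap.ext fun x => ?_
  have : x = x.1 • e 0 + x.2.1 • e 1 + x.2.2 • e 2 := by simp [e]
  conv_lhs => rw [this]
  simp [Fin.sum_univ_three, co]

/-- Partial derivatives of class C^n. -/
theorem part {F G : ℝ → X3 → V} (hI : IsOpen I) (hF : ∀ r ∈ I, Differentiable ℝ (F r))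
    (h : ∀ r ∈ I, ∀ x, HasDerivAt (fun r => F r x) (G r x) r)
    (hG : ContDiffOn ℝ n (fun p : ℝ × X3 => G p.1 p.2) (I ×ˢ univ))
    (hd : ∀ j, ContDiffOn ℝ n (fun p : ℝ × X3 => pd j (F p.1) p.2) (I ×ˢ univ)) :
    ContDiffOn ℝ (n + 1 : ℕ) (fun p : ℝ × X3 => F p.1 p.2) (I ×ˢ univ) := by
  have hO : IsOpen (I ×ˢ (univ : Set X3)) := hI.prod isOpen_univ
  have c1 : ContDiffOn ℝ n (fun p : ℝ × X3 => (1 : ℝ →L[ℝ] ℝ).smulRight (G p.1 p.2))
      (I ×ˢ univ) := contDiffOn_const.smulRight hG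
  have c2 : ContDiffOn ℝ n (fun p : ℝ × X3 => ∑ j, (co j).smulRight (pd j (F p.1) p.2))
      (I ×ˢ univ) := ContDiffOn.sum fun j _ => contDiffOn_const.smulRight (hd j)
  rw [Nat.cast_succ, contDiffOn_succ_iff_hasFDerivWithinAt_of_uniqueDiffOn hO.uniqueDiffOn]
  refine ⟨by simp, fun p => ((1 : ℝ →L[ℝ] ℝ).smulRight (G p.1 p.2)).comp (.fst ℝ ℝ X3) +
    (∑ j, (co j).smulRight (pd j (F p.1) p.2)).comp (.snd ℝ ℝ X3),
    (c1.clm_comp contDiffOn_const).add (c2.clm_comp contDiffOn_const), fun p hp => ?_⟩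
  have n0 := hO.mem_nhds hp
  have a := hasStrictFDerivAt_uncurry_coprod (𝕜 := ℝ) (u := p) (f := F)
    (f₁ := fun r x => (1 : ℝ →L[ℝ] ℝ).smulRight (G r x))
    (f₂ := fun r x => ∑ j, (co j).smulRight (pd j (F r) x))
    (by filter_upwards [n0] with q hq using (h q.1 hq.1 q.2).hasFDerivAt)
    (by
      filter_upwards [n0] with q hq
      exact (hF q.1 hq.1 q.2).hasFDerivAt.congr_fderiv (clm_eq _))
    (c1.continuousOn.continuousAt n0) (c2.continuousOn.continuousAt n0)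
  exact (a.hasFDerivAt.congr_fderiv (ContinuousLinearMap.ext fun v => rfl)).hasFDerivWithinAt

/-- **SMOOTH.** -/
theorem smooth : SMOOTH := by
  intro V _ _ _ S s t U hS hU
  have := FiniteDimensional.complete ℝ V
  have h0 : Cl (Ioo s t) 0 U := ⟨hU.smooth, fun α => contDiffOn_zero.2 (hU.cont α)⟩
  have d := fun α => exchl α h0 (h0.G hS) fun r hr x =>
    (hU.deriv r hr x).hasDerivAt (isOpen_Ioo.mem_nhds hr)
  have a : ∀ n, Cl (Ioo s t) n U := fun n => by
    induction n with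
    | zero => exact h0
    | succ n ih =>
      exact ⟨hU.smooth, fun α => part (F := fun r => pdl α (U r)) isOpen_Ioo
        (fun r hr => dif (pdl_sm α (hU.smooth r hr))) (d α) ((ih.G hS).cd α) fun j => by
          simpa only [pd_pdl] using ih.cd (α ++ [j])⟩
  exact contDiffOn_infty.2 fun n => (a n).cd []

end Vale.Agent.P354HL
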