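import Vale.Agent.P354HL.Smooth
import Vale.Agent.P354HU.Uniq

/-!
Finite speed of propagation and local existence with compact support.
-/

open scoped ContDiff
open MeasureTheory Set Filter Topology

namespace Vale.Agent.P354HL

open Vale.Agent.P354H

section
variable {V : Type} [NormedAddCommGroup V] [InnerProductSpace ℝ V] [FiniteDimensional ℝ V]
  {A : Fin 3 → ℝ × X3 → V →L[ℝ] V} {Z : ℝ × X3 → V} {O : Set (ℝ × X3)} {t0 t1 a K r : ℝ} {y : X3}

theorem co_e (j k : Fin 3) : co j (e k) = if j = k then 1 else 0 := by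
  fin_cases j <;> fin_cases k <;> simp [co, e]

theorem norm_lt_co {x : X3} {r : ℝ} (h : ∀ j, |co j x| < r) : ‖x‖ < r := by
  have a := h 0
  have b := h 1
  have c := h 2
  simp only [Prod.norm_def, max_lt_iff]
  exact ⟨a, b, c⟩

/-- **Finite speed**, forward in time. -/
theorem speed (hO : IsOpen O) (hs : Icc t0 t1 ×ˢ Metric.closedBall y r ⊆ O)
    (hA : ∀ j, ContDiffOn ℝ 1 (A j) O) (hZ : ContDiffOn ℝ 1 Z O)
    (H : ∀ p ∈ Icc t0 t1 ×ˢ Metric.closedBall y r, (∀ j, Sym (A j p) ∧ ‖A j p‖ ≤ a) ∧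
      ‖dt Z p - ∑ j, A j p (dx j Z p)‖ ≤ K * ‖Z p‖)
    (h0 : ∀ x, ‖x - y‖ < r → Z (t0, x) = 0) (ht : t0 ≤ t1) (hr : a * (t1 - t0) < r) (ha : 0 ≤ a) :
    Z (t1, y) = 0 := by
  let T : Fin 3 × Bool → ℝ × X3 →L[ℝ] ℝ := fun i =>
    (bif i.2 then (1 : ℝ) else -1) • (co i.1).comp (.snd ℝ ℝ X3) + a • .fst ℝ ℝ X3
  have hT : ∀ i p, T i p = (bif i.2 then (1 : ℝ) else -1) * co i.1 p.2 + a * p.1 := fun _ _ => rfl
  have hd : ∀ i p, fderiv ℝ (fun p => T i p - (T i (t0, y) + r)) p = T i := fun i p =>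
    ((T i).hasFDerivAt.sub_const _).fderiv
  have hb : ∀ p : ℝ × X3, t0 ≤ p.1 → (∀ i, T i p - (T i (t0, y) + r) < 0) → ‖p.2 - y‖ < r :=
    fun p hp h => norm_lt_co fun j => by
      have h1 := h (j, true)
      have h2 := h (j, false)
      have h3 := mul_le_mul_of_nonneg_left hp ha
      simp only [hT, cond_true, cond_false] at h1 h2
      rw [map_sub, abs_lt]
      constructor <;> linarith
  refine P354HU.uniq V _ (fun i p => T i p - (T i (t0, y) + r)) A Z O _ t0 t1 K hO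
    (isCompact_Icc.prod (isCompact_closedBall y r)) hs (fun i => (T i).contDiff.sub contDiff_const)
    hA hZ (fun p hp h => ?_) (fun x h => h0 x (hb (t0, x) le_rfl h)) _ ⟨ht, le_rfl⟩ fun i => ?_
  · have m : p ∈ Icc t0 t1 ×ˢ Metric.closedBall y r :=
      ⟨hp, mem_closedBall_iff_norm.2 (hb p hp.1 h).le⟩
    refine ⟨m, fun j => ((H p m).1 j).1, (H p m).2, fun i z => ?_⟩
    have b := abs_le.1 ((abs_real_inner_le_norm z (A i.1 p z)).trans (mul_le_mul_of_nonneg_left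
      (((A i.1 p).le_opNorm z).trans (mul_le_mul_of_nonneg_right ((H p m).1 i.1).2 (norm_nonneg z)))
        (norm_nonneg z)))
    simp only [dx, dt, hd]
    simp only [hT, co_e, map_zero]
    rcases i with ⟨j, _ | _⟩ <;> simp at b ⊢ <;> nlinarith
  · rw [hT, hT]
    linarith

/-- Reversal of time. -/
noncomputable def rv : ℝ × X3 →L[ℝ] ℝ × X3 := (-ContinuousLinearMap.fst ℝ ℝ X3).prod (.snd ℝ ℝ X3)

theorem rv_ap (p : ℝ × X3) : rv p = (-p.1, p.2) := rfl

/-- **Finite speed**, backward in time. -/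
theorem speed' (hO : IsOpen O) (hs : Icc t1 t0 ×ˢ Metric.closedBall y r ⊆ O)
    (hA : ∀ j, ContDiffOn ℝ 1 (A j) O) (hZ : ContDiffOn ℝ 1 Z O)
    (H : ∀ p ∈ Icc t1 t0 ×ˢ Metric.closedBall y r, (∀ j, Sym (A j p) ∧ ‖A j p‖ ≤ a) ∧
      ‖dt Z p - ∑ j, A j p (dx j Z p)‖ ≤ K * ‖Z p‖)
    (h0 : ∀ x, ‖x - y‖ < r → Z (t0, x) = 0) (ht : t1 ≤ t0) (hr : a * (t0 - t1) < r) (ha : 0 ≤ a) :
    Z (t1, y) = 0 := by
  have m : ∀ p ∈ Icc (-t0) (-t1) ×ˢ Metric.closedBall y r,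
      rv p ∈ Icc t1 t0 ×ˢ Metric.closedBall y r := fun p hp =>
    ⟨⟨le_neg.1 hp.1.2, neg_le.1 hp.1.1⟩, hp.2⟩
  have := speed (A := fun j p => -A j (rv p)) (Z := fun p => Z (rv p)) (K := K) (a := a)
    (hO.preimage rv.continuous) (fun p hp => hs (m p hp))
    (fun j => ((hA j).comp rv.contDiff.contDiffOn fun _ h => h).neg)
    (hZ.comp rv.contDiff.contDiffOn fun _ h => h) (fun p hp => ?_)
    (fun x hx => by simpa [rv_ap] using h0 x hx) (neg_le_neg ht) (by linarith) ha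
  · simpa [rv_ap] using this
  obtain ⟨h1, h2⟩ := H _ (m p hp)
  have d : fderiv ℝ (fun p => Z (rv p)) p = _ := ((((hZ.contDiffAt (hO.mem_nhds (hs (m p hp)))
    ).differentiableAt one_ne_zero).hasFDerivAt).comp p rv.hasFDerivAt).fderiv
  refine ⟨fun j => ⟨fun v w => by simp [(h1 j).1 v w], (norm_neg _).trans_le (h1 j).2⟩, ?_⟩
  rw [← norm_neg] at h2
  refine le_trans (le_of_eq (congrArg _ ?_)) h2
  have e1 : rv (1, 0) = -(1, 0) := by simp [rv_ap]
  have e2 : ∀ j, rv (0, e j) = (0, e j) := fun j => by simp [rv_ap]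
  simp only [dt, dx, d, ContinuousLinearMap.comp_apply, e1, e2, map_neg, neg_apply,
    Finset.sum_neg_distrib]
  abel

omit [FiniteDimensional ℝ V] in
theorem sym_A {S : Sys V} (h : S.OK) (j : Fin 3) (p : ℝ × X3) (w : V) : Sym (S.A j p w) :=
  fun u v => by simp [Sys.A, inner_add_left, inner_add_right, h.sa j p u v, h.sl j p w u v]

end

theorem holds_congr {V : Type} [NormedAddCommGroup V] [NormedSpace ℝ V] {S : Sys V}
    {W W' : ℝ × X3 → V} {p : ℝ × X3} (h : W =ᶠ[𝓝 p] W') (h' : S.Holds W' p) : S.Holds W p := by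
  unfold Sys.Holds dt dx at *
  rwa [h.fderiv_eq, h.self_of_nhds]

/-- **LOCAL.** -/
theorem local_of (hp : PRE) : LOCAL := by
  intro C R
  obtain ⟨δ, c, d0, d1, h⟩ := hp C R
  refine ⟨δ / 2, by linarith, by linarith, fun V _ _ _ S t0 w ok bd gw hw => ?_⟩
  obtain ⟨U, u1, u2, u3⟩ := h V S t0 w ok bd gw hw
  have sm := smooth V S _ _ U ok.sm u1
  have hO : IsOpen (Ioo (t0 - δ) (t0 + δ) ×ˢ (univ : Set X3)) := isOpen_Ioo.prod isOpen_univ
  have ho : ∀ p ∈ Ioo (t0 - δ) (t0 + δ) ×ˢ (univ : Set X3), S.Holds (fun p => U p.1 p.2) p :=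
    fun p hp => by
      have d := (sm.contDiffAt (hO.mem_nhds hp)).differentiableAt (by simp)
      have a0 : HasDerivAt (fun s => U s p.2) (dt (fun p => U p.1 p.2) p) p.1 :=
        HasFDerivAt.comp_hasDerivAt (l := fun p : ℝ × X3 => U p.1 p.2) (f := fun s => (s, p.2)) p.1
          d.hasFDerivAt ((hasDerivAt_id p.1).prodMk (hasDerivAt_const p.1 p.2))
      have a := a0.unique ((u1.deriv p.1 hp.1 p.2).hasDerivAt (isOpen_Ioo.mem_nhds hp.1))
      refine a.trans ?_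
      simp only [Sys.G, ← pd_sl_at (t := p.1) (x := p.2) d]
      rfl
  have H : ∀ p ∈ Ioo (t0 - δ) (t0 + δ) ×ˢ (univ : Set X3),
      (∀ j, Sym (S.A j p (U p.1 p.2)) ∧ ‖S.A j p (U p.1 p.2)‖ ≤ C 0 + C 0 * c) ∧
      ‖dt (fun p => U p.1 p.2) p - ∑ j, S.A j p (U p.1 p.2) (dx j (fun p => U p.1 p.2) p)‖ ≤
        (C 0 + C 0 * c) * ‖U p.1 p.2‖ := fun p hp => by
    obtain ⟨b1, b2, b3⟩ := bd 0 p.1 ⟨by linarith [hp.1.1], by linarith [hp.1.2]⟩
    have b4 := (u3 p.1 hp.1).zero p.2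
    refine ⟨fun j => ⟨sym_A ok j p _, (norm_add_le _ _).trans (add_le_add ((b1 j).1.zero p.2)
      (((S.l j p).le_opNorm _).trans
        (mul_le_mul ((b1 j).2.zero p.2) b4 (norm_nonneg _) b2.nonneg)))⟩, ?_⟩
    rw [ho p hp, add_sub_cancel_left, add_mul]
    exact (norm_add_le _ _).trans (add_le_add (((S.b p).le_opNorm _).trans
      (mul_le_mul_of_nonneg_right (b2.zero p.2) (norm_nonneg _))) (((S.q p _).le_opNorm _).trans
      (mul_le_mul_of_nonneg_right (((S.q p).le_opNorm _).trans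
        (mul_le_mul (b3.zero p.2) b4 (norm_nonneg _) b2.nonneg)) (norm_nonneg _))))
  have m0 : t0 ∈ Ioo (t0 - δ) (t0 + δ) := ⟨by linarith, by linarith⟩
  have a0 : 0 ≤ C 0 + C 0 * c := (norm_nonneg _).trans ((H (t0, 0) ⟨m0, mem_univ _⟩).1 0).2
  have s1 := sm.of_le (m := 1) (by simp)
  have hA : ∀ j, ContDiffOn ℝ 1 (fun p => S.A j p (U p.1 p.2)) (Ioo (t0 - δ) (t0 + δ) ×ˢ univ) :=
    fun j => ((ok.sm.a j).of_le (by simp)).contDiffOn.add
      (((ok.sm.l j).of_le (by simp)).contDiffOn.clm_apply s1)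
  obtain ⟨ρ, hρ⟩ := gw.2.isBounded.subset_closedBall 0
  have z : ∀ t ∈ Ioo (t0 - δ) (t0 + δ), ∀ y, y ∉ Metric.closedBall 0 (ρ + (C 0 + C 0 * c + 1)) →
      U t y = 0 := fun t ht y hy => by
    have h0 : ∀ x, ‖x - y‖ < C 0 + C 0 * c + 1 → U t0 x = 0 := fun x hx => by
      rw [u2]
      refine image_eq_zero_of_notMem_tsupport fun k => hy ?_
      have := mem_closedBall_zero_iff.1 (hρ k)
      have := norm_sub_norm_le y x
      rw [norm_sub_rev] at hx
      rw [mem_closedBall_zero_iff]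
      linarith
    rcases le_total t0 t with k | k
    · have s : Icc t0 t ×ˢ Metric.closedBall y (C 0 + C 0 * c + 1) ⊆ Ioo (t0 - δ) (t0 + δ) ×ˢ univ :=
        prod_mono (ordConnected_Ioo.out m0 ht) (subset_univ _)
      exact speed hO s hA s1 (fun p hp => H p (s hp)) h0 k (by nlinarith [ht.2]) a0
    · have s : Icc t t0 ×ˢ Metric.closedBall y (C 0 + C 0 * c + 1) ⊆ Ioo (t0 - δ) (t0 + δ) ×ˢ univ :=
        prod_mono (ordConnected_Ioo.out ht m0) (subset_univ _)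
      exact speed' hO s hA s1 (fun p hp => H p (s hp)) h0 k (by nlinarith [ht.1]) a0
  obtain ⟨η, e1, e2, e3, -, e5⟩ := P354HU.cutoff (O := Ioo (t0 - δ) (t0 + δ)) isOpen_Ioo
    (isCompact_Icc (a := t0 - δ / 2) (b := t0 + δ / 2)) (Icc_subset_Ioo (by linarith) (by linarith))
  refine ⟨fun p => η p.1 • U p.1 p.2, contDiff_iff_contDiffAt.2 fun p => ?_,
    .intro (e2.prod (isCompact_closedBall 0 (ρ + (C 0 + C 0 * c + 1)))) fun p hp => ?_,
    funext fun x => ?_, fun p hp => holds_congr ?_ (ho p ⟨⟨by linarith [hp.1], by linarith [hp.2]⟩,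
      mem_univ _⟩)⟩
  · by_cases k : p.1 ∈ tsupport η
    · exact (e1.comp contDiff_fst).contDiffAt.smul (sm.contDiffAt (hO.mem_nhds ⟨e3 k, mem_univ _⟩))
    · refine (contDiffAt_const (c := (0 : V))).congr_of_eventuallyEq ?_
      filter_upwards [continuous_fst.continuousAt (notMem_tsupport_iff_eventuallyEq.1 k)] with q hq
      rw [show η q.1 = 0 from hq, zero_smul]
  · by_cases k : p.1 ∈ tsupport η
    · rw [z _ (e3 k) _ fun k' => hp ⟨k, k'⟩, smul_zero]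
    · rw [image_eq_zero_of_notMem_tsupport k, zero_smul]
  · show η t0 • U t0 x = _
    rw [(e5 t0 ⟨by linarith, by linarith⟩).self_of_nhds, one_smul, u2]
  · filter_upwards [continuous_fst.continuousAt (e5 p.1 hp)] with q hq
    rw [show η q.1 = 1 from hq, one_smul]

end Vale.Agent.P354HL
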